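import Vale.Agent.P011Z.Cl.Gal2

/-!
Classification of the forms, block Fnf: cocycles with values in the diagonal torus modulo scalars.
-/

noncomputable section

namespace Vale.Agent.P011Z.Cl.Fnfx

/-- Proportional vectors. -/
def Pp (u v : Fin 3 → Om) : Prop := ∃ k : Om, k ≠ 0 ∧ ∀ j, u j = k * v j

theorem Pp.refl (u : Fin 3 → Om) : Pp u u := ⟨1, one_ne_zero, fun _ => (one_mul _).symm⟩

theorem Pp.symm {u v : Fin 3 → Om} (h : Pp u v) : Pp v u := by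
  obtain ⟨k, hk, h⟩ := h
  exact ⟨k⁻¹, inv_ne_zero hk, fun j => by rw [h, inv_mul_cancel_left₀ hk]⟩

theorem Pp.trans {u v w : Fin 3 → Om} (h : Pp u v) (h' : Pp v w) : Pp u w := by
  obtain ⟨k, hk, h⟩ := h
  obtain ⟨l, hl, h'⟩ := h'
  exact ⟨k * l, mul_ne_zero hk hl, fun j => by rw [h, h', mul_assoc]⟩

theorem Pp.mul {u v u' v' : Fin 3 → Om} (h : Pp u v) (h' : Pp u' v') :
    Pp (fun j => u j * u' j) fun j => v j * v' j := by
  obtain ⟨k, hk, h⟩ := h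
  obtain ⟨l, hl, h'⟩ := h'
  exact ⟨k * l, mul_ne_zero hk hl, fun j => by beta_reduce; rw [h, h']; ring⟩

theorem Pp.inv {u v : Fin 3 → Om} (h : Pp u v) : Pp (fun j => (u j)⁻¹) fun j => (v j)⁻¹ := by
  obtain ⟨k, hk, h⟩ := h
  exact ⟨k⁻¹, inv_ne_zero hk, fun j => by beta_reduce; rw [h, mul_inv]⟩

theorem Pp.act {u v : Fin 3 → Om} (h : Pp u v) (σ : Gq) (a : Fin 3) :
    Pp (fun j => σ (u (j - a))) fun j => σ (v (j - a)) := by
  obtain ⟨k, hk, h⟩ := h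
  exact ⟨σ k, (map_ne_zero σ).2 hk, fun j => by beta_reduce; rw [h, map_mul]⟩

theorem Pp.congr {u v u' v' : Fin 3 → Om} (h : Pp u v) (h1 : ∀ j, u' j = u j)
    (h2 : ∀ j, v' j = v j) : Pp u' v' := by
  rw [funext h1, funext h2]
  exact h

/-- The ratios of the entries are fixed. -/
theorem Pp.ratio {u : Fin 3 → Om} {σ : Gq} (h : Pp (fun j => σ (u j)) u) (i j : Fin 3) :
    σ (u i / u j) = u i / u j := by
  obtain ⟨k, hk, h⟩ := h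
  beta_reduce at h
  rw [map_div₀, h, h, mul_div_mul_left _ _ hk]

/-- The group theoretic frame. -/
structure Gr (G K : Subgroup Gq) (χ : Gq → Fin 3) : Prop where
  opn : Opn K
  le : K ≤ G
  ix : Ix2 G K
  chi : Chi G χ

variable {G K : Subgroup Gq} {χ : Gq → Fin 3} {z : Gq → Fin 3 → Om} {σ τ n : Gq}

theorem chi_one (h : Chi G χ) : χ 1 = 0 := by
  have h1 := h.mul 1 G.one_mem 1 G.one_mem
  rw [mul_one] at h1
  exact left_eq_add.1 h1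

theorem chi_inv (h : Chi G χ) (hσ : σ ∈ G) : χ σ⁻¹ = -χ σ := by
  have h1 := h.mul σ⁻¹ (inv_mem hσ) σ hσ
  rw [inv_mul_cancel, chi_one h] at h1
  exact eq_neg_of_add_eq_zero_left h1.symm

theorem chi_div (h : Chi G χ) (hσ : σ ∈ G) (hτ : τ ∈ G) : χ (σ⁻¹ * τ) = χ τ - χ σ := by
  rw [h.mul _ (inv_mem hσ) _ hτ, chi_inv h hσ, neg_add_eq_sub]

theorem chi_conj (h : Chi G χ) (hσ : σ ∈ G) (hτ : τ ∈ G) : χ (σ⁻¹ * (τ * σ)) = χ τ := by
  rw [chi_div h hσ (mul_mem hτ hσ), h.mul _ hτ _ hσ, add_sub_cancel_right]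

theorem Gr.div (h : Gr G K χ) (hσ : σ ∈ G) (hτ : τ ∈ G) (h1 : σ ∉ K) (h2 : τ ∉ K) :
    σ⁻¹ * τ ∈ K :=
  (h.ix _ (inv_mem hσ) _ hτ).2 (iff_of_false (fun h3 => h1 (inv_mem_iff.1 h3)) h2)

theorem Gr.conj (h : Gr G K χ) (hσ : σ ∈ G) (hτ : τ ∈ K) : σ⁻¹ * (τ * σ) ∈ K := by
  by_cases h1 : σ ∈ K
  · exact mul_mem (inv_mem h1) (mul_mem hτ h1)
  · refine h.div hσ (mul_mem (h.le hτ) hσ) h1 fun h2 => h1 ?_
    exact (Subgroup.mul_mem_cancel_left K hτ).1 h2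

theorem three : ∀ a : Fin 3, a = 0 ∨ a = 1 ∨ a = 2 := by decide

/-- A property of the elements of `K` which is stable under products. -/
theorem gen (hχ : Chi K χ) {P : Gq → Prop} (hm : ∀ σ ∈ K, ∀ τ ∈ K, P σ → P τ → P (σ * τ))
    (h0 : ∀ σ ∈ K, χ σ = 0 → P σ) {ρ : Gq} (hρ : ρ ∈ K) (h1 : χ ρ = 1) (hP : P ρ) (hσ : σ ∈ K) :
    P σ := by
  have h2 : ∀ τ ∈ K, χ τ = 1 → P τ := fun τ hτ h3 => by
    have h4 := hm ρ hρ _ (mul_mem (inv_mem hρ) hτ) hP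
      (h0 _ (mul_mem (inv_mem hρ) hτ) (by rw [chi_div hχ hρ hτ, h1, h3, sub_self]))
    rwa [mul_inv_cancel_left] at h4
  rcases three (χ σ) with h3 | h3 | h3
  · exact h0 σ hσ h3
  · exact h2 σ hσ h3
  · have h4 := hm ρ hρ _ (mul_mem (inv_mem hρ) hσ) hP
      (h2 _ (mul_mem (inv_mem hρ) hσ) (by rw [chi_div hχ hρ hσ, h1, h3]; rfl))
    rwa [mul_inv_cancel_left] at h4

/-- Cocycles modulo scalars. -/
structure Zc (G K : Subgroup Gq) (χ : Gq → Fin 3) (z : Gq → Fin 3 → Om) : Prop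
    extends Gr G K χ where
  ne : ∀ σ ∈ G, ∀ j, z σ j ≠ 0
  coc : ∀ σ ∈ G, ∀ τ ∈ K, Pp (fun j => z σ j * σ (z τ (j - χ σ))) (z (σ * τ))
  cod : ∀ σ ∈ G, ∀ τ ∈ G, τ ∉ K → Pp (fun j => (z σ j)⁻¹ * σ (z τ (j - χ σ))) (z (σ * τ))
  smo : ∃ H, Opn H ∧ ∀ σ ∈ H, σ ∈ K → ∀ j, z σ j = 1

/-- The cocycle is scalar on the kernel of the character. -/
def Bs (K : Subgroup Gq) (χ : Gq → Fin 3) (z : Gq → Fin 3 → Om) : Prop :=
  ∀ n ∈ K, χ n = 0 → Pp (z n) 1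

theorem Zc.step1 (h : Zc G K χ z) : ∃ w : Fin 3 → Om, (∀ j, w j ≠ 0) ∧
    ∀ n ∈ K, χ n = 0 → Pp (fun j => (w j)⁻¹ * z n j * n (w j)) 1 := by
  obtain ⟨N, hN, hN'⟩ := Chi.ker h.opn (h.chi.mono h.le)
  have h1 : ∀ j, ∃ w : Om, w ≠ 0 ∧ ∀ σ ∈ N, z σ j / z σ 0 * σ w = w := fun j => by
    refine h90 hN (fun σ => z σ j / z σ 0) (fun σ hσ => ?_) (fun σ hσ τ hτ => ?_) ?_
    · have h2 := h.ne σ (h.le ((hN' σ).1 hσ).1)
      exact div_ne_zero (h2 j) (h2 0)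
    · obtain ⟨k, hk, h2⟩ := (h.coc σ (h.le ((hN' σ).1 hσ).1) τ ((hN' τ).1 hτ).1).symm
      beta_reduce at h2
      rw [h2, h2, ((hN' σ).1 hσ).2, sub_zero, sub_zero, mul_div_mul_left _ _ hk, map_div₀,
        div_mul_div_comm]
    · obtain ⟨H, hH, h2⟩ := h.smo
      exact ⟨H, hH, fun σ hσ hσ' => by
        rw [h2 σ hσ ((hN' σ).1 hσ').1, h2 σ hσ ((hN' σ).1 hσ').1, div_one]⟩
  choose w hw0 hw using h1
  refine ⟨w, hw0, fun n hn h0 => ⟨z n 0, h.ne n (h.le hn) 0, fun j => ?_⟩⟩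
  have h2 := hw j n ((hN' n).2 ⟨hn, h0⟩)
  have h3 := h.ne n (h.le hn) 0
  have h4 := hw0 j
  beta_reduce
  rw [Pi.one_apply, mul_one, mul_assoc, inv_mul_eq_iff_eq_mul₀ h4]
  field_simp at h2
  rw [h2, mul_comm]

theorem Zc.right (h : Zc G K χ z) (hb : Bs K χ z) (hσ : σ ∈ G) (hn : n ∈ K) (h0 : χ n = 0) :
    Pp (z (σ * n)) (z σ) :=
  (h.coc σ hσ n hn).symm.trans (((Pp.refl (z σ)).mul ((hb n hn h0).act σ (χ σ))).congr
    (fun _ => rfl) fun j => by rw [Pi.one_apply, map_one, mul_one])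

theorem Zc.same (h : Zc G K χ z) (hb : Bs K χ z) (hσ : σ ∈ G) (hτ : τ ∈ G) (hK : σ⁻¹ * τ ∈ K)
    (he : χ τ = χ σ) : Pp (z τ) (z σ) := by
  have h1 := h.right hb hσ hK (by rw [chi_div h.chi hσ hτ, he, sub_self])
  rwa [mul_inv_cancel_left] at h1

theorem Zc.fix (h : Zc G K χ z) (hb : Bs K χ z) (hσ : σ ∈ G) (hn : n ∈ K) (h0 : χ n = 0) :
    Pp (fun j => n (z σ j)) (z σ) := by
  have h1 : Pp (z (n * σ)) (z σ) := h.same hb hσ (mul_mem (h.le hn) hσ) (h.conj hσ hn)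
    (by rw [h.chi.mul _ (h.le hn) _ hσ, h0, zero_add])
  refine Pp.trans ?_ h1
  by_cases hK : σ ∈ K
  · refine Pp.trans ?_ (h.coc n (h.le hn) σ hK)
    exact ((hb n hn h0).symm.mul (Pp.refl fun j => n (z σ j))).congr
      (fun j => by rw [Pi.one_apply, one_mul]) fun j => by rw [h0, sub_zero]
  · refine Pp.trans ?_ (h.cod n (h.le hn) σ hσ hK)
    exact ((hb n hn h0).symm.inv.mul (Pp.refl fun j => n (z σ j))).congr
      (fun j => by rw [Pi.one_apply, inv_one, one_mul]) fun j => by rw [h0, sub_zero]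

theorem Zc.step2 (h : Zc G K χ z) (hb : Bs K χ z) : ∃ (w : Fin 3 → Om) (c : Om),
    (∀ j, w j ≠ 0) ∧ c ≠ 0 ∧ (∀ n ∈ K, χ n = 0 → ∀ j, n (w j) = w j) ∧
    ((c = 1 ∧ ∀ ρ ∈ K, χ ρ ≠ 1) ∨ ∃ ρ ∈ K, χ ρ = 1 ∧
      Pp (fun j => (w j)⁻¹ * z ρ j * ρ (w (j - χ ρ))) ![c, 1, 1]) := by
  by_cases hρ : ∃ ρ ∈ K, χ ρ = 1
  · obtain ⟨ρ, hρ, h1⟩ := hρ
    have h2 := h.ne ρ (h.le hρ)
    refine ⟨![1, 1, z ρ 2 / z ρ 1], z ρ 0 / z ρ 1 * ρ (z ρ 2 / z ρ 1), fun j => ?_,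
      mul_ne_zero (div_ne_zero (h2 0) (h2 1)) ((map_ne_zero ρ).2 (div_ne_zero (h2 2) (h2 1))),
      fun n hn h0 j => ?_, Or.inr ⟨ρ, hρ, h1, z ρ 1, h2 1, fun j => ?_⟩⟩
    · rcases three j with rfl | rfl | rfl
      · exact one_ne_zero
      · exact one_ne_zero
      · exact div_ne_zero (h2 2) (h2 1)
    · rcases three j with rfl | rfl | rfl
      · exact map_one n
      · exact map_one n
      · exact (h.fix hb (h.le hρ) hn h0).ratio 2 1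
    · have h3 := h2 1
      have h4 := h2 2
      rw [h1]
      rcases three j with rfl | rfl | rfl
      · change (1 : Om)⁻¹ * z ρ 0 * ρ (z ρ 2 / z ρ 1) =
          z ρ 1 * (z ρ 0 / z ρ 1 * ρ (z ρ 2 / z ρ 1))
        field_simp
      · change (1 : Om)⁻¹ * z ρ 1 * ρ 1 = z ρ 1 * 1
        rw [map_one, inv_one, one_mul]
      · change (z ρ 2 / z ρ 1)⁻¹ * z ρ 2 * ρ 1 = z ρ 1 * 1
        rw [map_one]
        field_simp
  · exact ⟨1, 1, fun _ => one_ne_zero, one_ne_zero, fun n _ _ _ => map_one n,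
      Or.inl ⟨rfl, fun ρ h1 h2 => hρ ⟨ρ, h1, h2⟩⟩⟩

theorem Zc.rho_fix (h : Zc G K χ z) (hb : Bs K χ z) {ρ : Gq} (hρ : ρ ∈ K) (h1 : χ ρ = 1) {c : Om}
    (hc : Pp (z ρ) ![c, 1, 1]) : Fx K c := by
  have hG := h.le hρ
  refine fun σ hσ => gen (h.chi.mono h.le) (P := fun σ => σ c = c) (fun σ _ τ _ a b => ?_)
    (fun n hn h0 => ?_) hρ h1 ?_ hσ
  · rw [AlgEquiv.mul_apply, b, a]
  · have h2 : Pp (fun j => n (![c, 1, 1] j)) ![c, 1, 1] :=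
      (((hc.symm.act n 0).congr (fun j => by rw [sub_zero]) fun j => by rw [sub_zero]).trans
        (h.fix hb hG hn h0)).trans hc
    have h3 : n (c / 1) = c / 1 := h2.ratio 0 1
    rwa [div_one] at h3
  · have h2 : Pp (z (ρ * ρ)) ![c, ρ c, 1] :=
      (h.coc ρ hG ρ hρ).symm.trans ((hc.mul (hc.act ρ (χ ρ))).congr (fun _ => rfl) fun j => by
        rw [h1]
        rcases three j with rfl | rfl | rfl
        · change c = c * ρ 1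
          rw [map_one, mul_one]
        · exact (one_mul _).symm
        · change (1 : Om) = 1 * ρ 1
          rw [map_one, mul_one])
    have h3 : Pp (fun j => ![c, 1, 1] j * ρ (![c, ρ c, 1] (j - χ ρ))) 1 :=
      ((hc.mul (h2.act ρ (χ ρ))).symm.trans (h.coc ρ hG _ (mul_mem hρ hρ))).trans
        (hb _ (mul_mem hρ (mul_mem hρ hρ)) (by
          rw [h.chi.mul _ hG _ (mul_mem hG hG), h.chi.mul _ hG _ hG, h1]; rfl))
    obtain ⟨k, -, h4⟩ := h3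
    rw [h1] at h4
    have h5 : c * ρ 1 = k * 1 := h4 0
    have h6 : 1 * ρ c = k * 1 := h4 1
    rw [map_one, mul_one] at h5
    rw [one_mul] at h6
    rw [h6, h5]

theorem Zc.step3 (h : Zc G K χ z) (hb : Bs K χ z) {c : Om} (hc0 : c ≠ 0)
    (hc : (c = 1 ∧ ∀ ρ ∈ K, χ ρ ≠ 1) ∨ ∃ ρ ∈ K, χ ρ = 1 ∧ Pp (z ρ) ![c, 1, 1]) :
    Fx K c ∧ (∀ ρ ∈ K, χ ρ = 1 → Pp (z ρ) ![c, 1, 1]) ∧ ∃ g : Fin 3 → Om, (∀ i, g i ≠ 0) ∧
      (∀ σ ∈ G, χ σ = 0 → ∀ i, σ (g i) = g i) ∧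
      (∀ s ∈ G, s ∉ K → χ s = 0 → Pp (z s) fun i => g (i + 1) * g (i + 2)) ∧
      ∀ ρ ∈ K, χ ρ = 1 → ∀ s ∈ G, s ∉ K → ∃ t : Om, (∀ σ ∈ G, χ σ = 0 → σ t = t) ∧
        g 1 = t * ρ (g 0) ∧ g 2 = t * ρ (g 1) ∧ g 0 = c * s c * t * ρ (g 2) := by
  have hF : Fx K c := by
    rcases hc with ⟨rfl, -⟩ | ⟨ρ, hρ, h1, h2⟩
    · exact fun σ _ => map_one σ
    · exact h.rho_fix hb hρ h1 h2
  have hR : ∀ ρ ∈ K, χ ρ = 1 → Pp (z ρ) ![c, 1, 1] := fun ρ' hρ' h1' => by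
    rcases hc with ⟨-, h1⟩ | ⟨ρ, hρ, h1, h2⟩
    · exact absurd h1' (h1 ρ' hρ')
    · exact (h.same hb (h.le hρ) (h.le hρ') (mul_mem (inv_mem hρ) hρ') (h1'.trans h1.symm)).trans
        h2
  refine ⟨hF, hR, ?_⟩
  by_cases hs : ∃ s ∈ G, s ∉ K
  swap
  · exact ⟨1, fun _ => one_ne_zero, fun σ _ _ _ => map_one σ,
      fun s h1 h2 => absurd ⟨s, h1, h2⟩ hs, fun _ _ _ s h1 h2 => absurd ⟨s, h1, h2⟩ hs⟩
  obtain ⟨s', hs', hsK'⟩ := hs
  obtain ⟨s, hs, hsK, hs0⟩ := h.chi.ix2' h.ix hs' hsK'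
  have hy := h.ne s hs
  have hss : Pp (fun j => s (z s j)) (z s) := by
    have h1 := (h.cod s hs s hs hsK).trans (hb _ ((h.ix s hs s hs).2 Iff.rfl)
      (by rw [h.chi.mul s hs s hs, hs0, add_zero]))
    exact ((Pp.refl (z s)).mul h1).congr
      (fun j => by rw [hs0, sub_zero, mul_inv_cancel_left₀ (hy j)])
      fun j => by rw [Pi.one_apply, mul_one]
  have hg : ∀ σ ∈ G, χ σ = 0 → ∀ i, σ (z s 0 / z s i) = z s 0 / z s i := fun σ hσ h0 i => by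
    by_cases hK : σ ∈ K
    · exact (h.fix hb hs hK h0).ratio 0 i
    · have h1 := (h.fix hb hs (h.div hs hσ hsK hK)
        (by rw [chi_div h.chi hs hσ, h0, hs0, sub_self])).ratio 0 i
      rw [← mul_inv_cancel_left s σ, AlgEquiv.mul_apply, h1, hss.ratio]
  have hy0 := hy 0
  have hy1 := hy 1
  have hy2 := hy 2
  refine ⟨fun i => z s 0 / z s i, fun i => div_ne_zero hy0 (hy i), hg, fun σ hσ hK h0 => ?_,
    fun ρ hρ h1 σ hσ hK => ⟨z s 0 / z s 1, fun τ hτ h0 => hg τ hτ h0 1, ?_⟩⟩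
  · refine (h.same hb hs hσ (h.div hs hσ hsK hK) (h0.trans hs0.symm)).trans
      ⟨z s 0 * z s 1 * z s 2 / z s 0 ^ 2, div_ne_zero (mul_ne_zero (mul_ne_zero hy0 hy1) hy2)
        (pow_ne_zero _ hy0), fun j => ?_⟩
    rcases three j with rfl | rfl | rfl
    · change z s 0 = _ * (z s 0 / z s 1 * (z s 0 / z s 2))
      field_simp
    · change z s 1 = _ * (z s 0 / z s 2 * (z s 0 / z s 0))
      field_simp
    · change z s 2 = _ * (z s 0 / z s 0 * (z s 0 / z s 1))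
      field_simp
  · have hG := h.le hρ
    have h2 : σ c = s c := by
      rw [← mul_inv_cancel_left s σ, AlgEquiv.mul_apply, hF _ (h.div hs hσ hsK hK)]
    have h3 := h.coc s hs _ (h.conj hs hρ)
    rw [mul_inv_cancel_left] at h3
    have h4 := hR _ (h.conj hs hρ) (by rw [chi_conj h.chi hs hG, h1])
    have h5 : Pp (fun j => (![c, 1, 1] j)⁻¹ * ρ (z s (j - χ ρ)))
        fun j => z s j * s (![c, 1, 1] (j - χ s)) :=
      ((((hR ρ hρ h1).symm.inv.mul (Pp.refl fun j => ρ (z s (j - χ ρ)))).trans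
        (h.cod ρ hG s hs hsK)).trans h3.symm).trans ((Pp.refl (z s)).mul (h4.act s (χ s)))
    obtain ⟨k, hk, h6⟩ := h5
    rw [h1, hs0] at h6
    have e0 : c⁻¹ * ρ (z s 2) = k * (z s 0 * s c) := h6 0
    have e1 : (1 : Om)⁻¹ * ρ (z s 0) = k * (z s 1 * s 1) := h6 1
    have e2 : (1 : Om)⁻¹ * ρ (z s 1) = k * (z s 2 * s 1) := h6 2
    rw [inv_mul_eq_iff_eq_mul₀ hc0] at e0
    rw [inv_one, one_mul, map_one, mul_one] at e1 e2
    have hsc : s c ≠ 0 := (map_ne_zero s).2 hc0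
    beta_reduce
    refine ⟨?_, ?_, ?_⟩
    · rw [div_self hy0, map_one, mul_one]
    · rw [map_div₀, e1, e2]
      field_simp
    · rw [map_div₀, e0, e1, h2]
      field_simp

end Vale.Agent.P011Z.Cl.Fnfx

end
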