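import Vale.Agent.P011Z.Cl.Dat
import Vale.Agent.P011Z.Cl.Fnf.Alg

/-!
Classification of the forms, block Fnf: from the diagonal form to the normal form.
-/

noncomputable section

namespace Vale.Agent.P011Z.Cl.Fnfx

open Vale.Agent.P011.D4 Vale.Agent.P011.D4.Oct Vale.Agent.P011.E6 Vale.Agent.P011.E6.Alb

variable {D : ED} {χ : Gq → Fin 3} {α : Gq → O → O} {z : Gq → Fin 3 → Om} {σ τ : Gq}

/-- The action of Hurwitz type. -/
def hh (χ : Gq → Fin 3) (α : Gq → O → O) (σ : Gq) : J → J :=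
  hur (Equiv.addRight (χ σ)) σ (α σ)

/-- The diagonal form. -/
structure DF (D : ED) (χ : Gq → Fin 3) (α : Gq → O → O) (z : Gq → Fin 3 → Om) : Prop where
  ha : HA D.G α
  ne : ∀ σ ∈ D.G, ∀ j, z σ j ≠ 0
  eq : ∀ σ ∈ D.G, ∀ x, D.f σ x = sc (z σ) (hh χ α σ x)

section hh

variable {G : Subgroup Gq}

theorem add_inv (a j : Fin 3) : (Equiv.addRight a)⁻¹ j = j - a := by
  rw [sub_eq_add_neg]
  rfl

theorem add_mul' (a b : Fin 3) :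
    Equiv.addRight a * Equiv.addRight b = Equiv.addRight (a + b) := by
  ext j
  change ((j + b + a : Fin 3) : ℕ) = (j + (a + b) : Fin 3)
  rw [add_assoc, add_comm b]

theorem hh_sim (h : HA G α) (hσ : σ ∈ G) : Sim σ (hh χ α σ) :=
  (hur_props (h.semi σ hσ) (h.hom σ hσ)).1

theorem hh_prm (h : HA G α) (hσ : σ ∈ G) : Prm (Equiv.addRight (χ σ)) (hh χ α σ) := fun i =>
  ⟨1, by rw [one_smul]; exact (hur_props (h.semi σ hσ) (h.hom σ hσ)).2.2.2.1 i⟩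

theorem hh_dag (h : HA G α) (hσ : σ ∈ G) (y : J) : dag σ (hh χ α σ) y = hh χ α σ y :=
  dag_eq (hh_sim h hσ).toSemi fun x => (hur_props (h.semi σ hσ) (h.hom σ hσ)).2.2.1 x y

theorem hh_hh (h : HA G α) (hχ : Chi G χ) (hσ : σ ∈ G) (hτ : τ ∈ G) (x : J) :
    hh χ α σ (hh χ α τ x) = hh χ α (σ * τ) x := by
  rw [hh, hh, hur_hur (hom_props (h.semi σ hσ) (h.hom σ hσ)).2.1, add_mul', hh, hχ.mul σ hσ τ hτ,
    funext (h.mul σ hσ τ hτ)]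

theorem hh_sc (h : HA G α) (hσ : σ ∈ G) {w : Fin 3 → Om} (hw : ∀ i, w i ≠ 0) (x : J) :
    hh χ α σ (sc w x) = sc (fun j => σ (w (j - χ σ))) (hh χ α σ x) := by
  rw [Prm.sc (hh_sim h hσ) (hh_prm h hσ) hw]
  simp only [add_inv]

theorem hh_zero (h0 : χ σ = 0) (x : J) : hh χ α σ x = al σ (α σ) x := by
  rw [hh, h0, Equiv.addRight_zero]
  exact hur_one _ x

end hh

theorem one_ne : (1 : O) ≠ 0 := fun h => by
  have h1 := congrArg Oct.norm h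
  rw [Oct.norm_one, Oct.norm_zero] at h1
  exact one_ne_zero h1

theorem pp_of_sc {u v : Fin 3 → Om} {c : Om} {f : J → J} (hf : Function.Surjective f)
    (hu : ∀ j, u j ≠ 0) (h : ∀ x, sc u (f x) = c • sc v (f x)) : Pp u v := by
  have h1 : ∀ j, u j = c * v j := fun j => by
    obtain ⟨x, hx⟩ := hf (ins j 1)
    have h2 := congrArg (fun y => sl y j) (h x)
    simp only [hx, Prcx.sl_smul, Prcx.sl_sc, Prcx.sl_ins_self, smul_smul] at h2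
    exact smul_left_injective Om one_ne h2
  exact ⟨c, fun hc => hu 0 (by rw [h1, hc, zero_mul]), h1⟩

theorem sc_pp {u v : Fin 3 → Om} (h : Pp u v) : ∃ t : Om, ∀ x, sc u x = t • sc v x := by
  obtain ⟨k, hk, h⟩ := h
  refine ⟨k, fun x => ?_⟩
  rw [← sc_const hk, sc_sc, funext h]
  rfl

theorem DF.zc (hd : DF D χ α z) (h : D.OK) (hχ : Chi D.G χ) : Zc D.G D.K χ z := by
  refine ⟨⟨h.opn, h.le, h.ix, hχ⟩, hd.ne, fun σ hσ τ hτ => ?_, fun σ hσ τ hτ hK => ?_, ?_⟩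
  · obtain ⟨c, hc⟩ := h.coc σ hσ τ hτ
    have hτ' := h.le hτ
    refine pp_of_sc (c := c) (hh_sim (χ := χ) hd.ha (mul_mem hσ hτ')).bij.2
      (fun j => mul_ne_zero (hd.ne σ hσ j) ((map_ne_zero σ).2 (hd.ne τ hτ' _))) fun x => ?_
    rw [← hd.eq _ (mul_mem hσ hτ'), ← hc, hd.eq σ hσ, hd.eq τ hτ', hh_sc hd.ha hσ (hd.ne τ hτ'),
      sc_sc, hh_hh hd.ha hχ hσ hτ']
    rfl
  · obtain ⟨c, hc⟩ := h.cod σ hσ τ hτ hK
    refine pp_of_sc (c := c) (hh_sim (χ := χ) hd.ha (mul_mem hσ hτ)).bij.2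
      (fun j => mul_ne_zero (inv_ne_zero (hd.ne σ hσ j)) ((map_ne_zero σ).2 (hd.ne τ hτ _)))
      fun x => ?_
    have h1 := dag_comp (sc_sim (hd.ne σ hσ)).1.toSemi (hh_sim (χ := χ) hd.ha hσ).toSemi
    rw [one_mul] at h1
    rw [← hd.eq _ (mul_mem hσ hτ), ← hc, funext (hd.eq σ hσ), h1, dag_sc (hd.ne σ hσ),
      hh_dag hd.ha hσ, hd.eq τ hτ, hh_sc hd.ha hσ (hd.ne τ hτ), sc_sc, hh_hh hd.ha hχ hσ hτ]
    rfl
  · obtain ⟨H, hH, h1⟩ := h.smo ones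
    refine ⟨H, hH, fun σ h2 h3 j => ?_⟩
    have h4 := h1 σ h2 h3
    have hσ := h.le h3
    rw [hd.eq σ hσ, hh, (hur_props (hd.ha.semi σ hσ) (hd.ha.hom σ hσ)).2.2.2.2.1] at h4
    have h5 := congrArg (fun y => sl y j) h4
    simp only [Prcx.sl_sc, ones, sl_jm, Pi.one_apply] at h5
    exact smul_left_injective Om one_ne (h5.trans (one_smul Om _).symm)

open Classical in
/-- The effect of a diagonal change of coordinates. -/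
def tw (K : Subgroup Gq) (χ : Gq → Fin 3) (z : Gq → Fin 3 → Om) (w : Fin 3 → Om) (σ : Gq)
    (j : Fin 3) : Om := (if σ ∈ K then (w j)⁻¹ else w j) * z σ j * σ (w (j - χ σ))

theorem tw_K {K : Subgroup Gq} {w : Fin 3 → Om} (h : σ ∈ K) :
    tw K χ z w σ = fun j => (w j)⁻¹ * z σ j * σ (w (j - χ σ)) :=
  funext fun j => by rw [tw, if_pos h]

theorem DF.conj (hd : DF D χ α z) {w : Fin 3 → Om} (hw : ∀ i, w i ≠ 0) :
    ∃ ψ : J ≃ₗ[Om] J, Sim 1 ψ ∧ DF (D.conj ψ) χ α (tw D.K χ z w) := by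
  obtain ⟨ψ, h1, h2⟩ := exists_sc hw
  refine ⟨ψ, by rw [funext h1]; exact (sc_sim hw).1, hd.ha, fun σ hσ j => ?_, fun σ hσ x => ?_⟩
  · refine mul_ne_zero (mul_ne_zero ?_ (hd.ne σ hσ j)) ((map_ne_zero σ).2 (hw _))
    split_ifs
    · exact inv_ne_zero (hw j)
    · exact hw j
  · by_cases hK : σ ∈ D.K
    · rw [D.conj_K ψ hK, h1, h2, hd.eq σ hσ, hh_sc hd.ha hσ hw, sc_sc, sc_sc]
      exact congrArg (fun u => sc u _) (tw_K hK).symm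
    · rw [Datx.f_nK D ψ hK]
      beta_reduce
      rw [funext h2, dag_sc (z := w⁻¹) fun i => inv_ne_zero (hw i), inv_inv, h1, hd.eq σ hσ,
        hh_sc hd.ha hσ hw, sc_sc, sc_sc]
      refine congrArg (fun u => sc u _) (funext fun j => ?_)
      rw [tw, if_neg hK]
      rfl

theorem DF.nf (hd : DF D χ α z) (h : D.OK) (hχ : Chi D.G χ) (hb : Bs D.K χ z) {c : Om}
    (hc0 : c ≠ 0) (hc : (c = 1 ∧ ∀ ρ ∈ D.K, χ ρ ≠ 1) ∨
      ∃ ρ ∈ D.K, χ ρ = 1 ∧ Pp (z ρ) ![c, 1, 1]) : ∃ g, D.NF χ α c g := by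
  obtain ⟨h1, h2, g, h3, h4, h5, h6⟩ := (hd.zc h hχ).step3 hb hc0 hc
  refine ⟨g, hd.ha, hc0, h1, h3, h4, fun σ hσ h0 => ?_, fun ρ hρ h7 => ?_,
    fun s hs hK h0 => ?_, h6⟩
  · obtain ⟨t, ht⟩ := sc_pp (hb σ hσ h0)
    refine ⟨t, fun x => ?_⟩
    rw [hd.eq σ (h.le hσ), ht, hh_zero h0]
    exact congrArg _ ((sc_const one_ne_zero _).trans (one_smul _ _))
  · obtain ⟨t, ht⟩ := sc_pp (h2 ρ hρ h7)
    refine ⟨t, fun x => ?_⟩
    rw [hd.eq ρ (h.le hρ), ht, phJ_sc hc0, hh, h7]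
  · obtain ⟨t, ht⟩ := sc_pp (h5 s hs hK h0)
    refine ⟨t, fun x => ?_⟩
    rw [hd.eq s hs, ht, wtJ_sc h3, hh_zero h0]

theorem DF.main (hd : DF D χ α z) (h : D.OK) (hχ : Chi D.G χ) :
    ∃ (ψ : J ≃ₗ[Om] J) (c : Om) (g : Fin 3 → Om), Sim 1 ψ ∧ (D.conj ψ).NF χ α c g := by
  obtain ⟨w, hw, h1⟩ := (hd.zc h hχ).step1
  obtain ⟨ψ, hψ, d1⟩ := hd.conj hw
  have o1 := h.conj hψ
  have b1 : Bs D.K χ (tw D.K χ z w) := fun n hn h0 => by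
    rw [tw_K hn]
    exact (h1 n hn h0).congr (fun j => by rw [h0, sub_zero]) fun _ => rfl
  obtain ⟨v, c, hv, hc0, h2, h3⟩ := (d1.zc o1 hχ).step2 b1
  obtain ⟨φ, hφ, d2⟩ := d1.conj hv
  obtain ⟨g, hg⟩ := d2.nf (o1.conj hφ) hχ (fun n hn h0 => by
    have hn' : n ∈ (D.conj ψ).K := hn
    rw [tw_K hn']
    refine (b1 n hn h0).congr (fun j => ?_) fun _ => rfl
    rw [h0, sub_zero, h2 n hn h0, mul_right_comm, inv_mul_cancel₀ (hv j), one_mul]) hc0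
    (h3.imp id fun ⟨ρ, hρ, h4, h5⟩ => ⟨ρ, hρ, h4, by rw [tw_K hρ]; exact h5⟩)
  rw [ED.conj_conj] at hg
  exact ⟨φ.trans ψ, c, g, hφ.trans hψ, hg⟩

/-- A datum of Hurwitz type is in diagonal form. -/
theorem df_of_hur {ψ : J ≃ₗ[Om] J} (h1 : Sim 1 ψ) (h2 : Prm 1 ψ)
    (h : ((FD.mk D.G (fun σ => Equiv.addRight (χ σ)) D.f).conj ψ).Hur α) :
    ∃ z, DF (D.conj ψ) χ α z := by
  obtain ⟨w, hw, h3⟩ := Prm.dag h1.symm (π := 1⁻¹) h2.symm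
  have h4 : ∀ σ, ∃ u : Fin 3 → Om, σ ∈ D.G → (∀ j, u j ≠ 0) ∧
      ∀ x, (D.conj ψ).f σ x = sc u (hh χ α σ x) := fun σ => by
    by_cases hσ : σ ∈ D.G
    · obtain ⟨u, hu, h5⟩ := h.2 σ hσ
      have h6 : ∀ x, ψ.symm (D.f σ (ψ x)) = sc u (hh χ α σ x) := h5
      by_cases hK : σ ∈ D.K
      · exact ⟨u, fun _ => ⟨hu, fun x => by rw [D.conj_K ψ hK, h6]⟩⟩
      · refine ⟨w * u, fun _ => ⟨fun j => mul_ne_zero (hw j) (hu j), fun x => ?_⟩⟩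
        rw [Datx.f_nK D ψ hK]
        beta_reduce
        rw [h3, h6, sc_sc]
    · exact ⟨1, fun h5 => absurd h5 hσ⟩
  choose z hz using h4
  exact ⟨z, h.1, fun σ hσ => (hz σ hσ).1, fun σ hσ => (hz σ hσ).2⟩

end Vale.Agent.P011Z.Cl.Fnfx

end
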