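import Vale.Agent.P011Z.Cl.Tri
import Vale.Agent.P011Z.Cl.Frm.Tv
import Vale.Agent.P011Z.Cl.Fnf.Df

/-!
Classification of the forms, block Fnf: consequences of the normal form.
-/

open Matrix Module

noncomputable section

namespace Vale.Agent.P011Z.Cl

open Vale.Agent.P011.D4 Vale.Agent.P011.D4.Oct Vale.Agent.P011.E6 Vale.Agent.P011.E6.Alb

variable {D : ED} {χ : Gq → Fin 3} {α : Gq → O → O} {c : Om} {g : Fin 3 → Om}

namespace Fnfx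

theorem al_al (σ τ : Gq) (a b : O → O) (x : J) :
    al σ a (al τ b x) = al (σ * τ) (fun y => a (b y)) x :=
  j_ext (fun i => by simp only [Prcx.dg_al, AlgEquiv.mul_apply]) fun i => by
    simp only [Prcx.sl_al]

theorem al_smul (φ : O ≃ₗ[Om] O) (t : Om) (x : J) : al 1 φ (t • x) = t • al 1 φ x :=
  (Cubx.al_semi (semi_lin φ)).smul t x

theorem al_phJ (φ : O ≃ₗ[Om] O) (c : Om) (x : J) : al 1 φ (phJ c x) = phJ c (al 1 φ x) := by
  refine j_ext (fun i => ?_) fun i => ?_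
  · rcases three i with rfl | rfl | rfl <;> rfl
  · rcases three i with rfl | rfl | rfl
    · exact map_smul φ c _
    · rfl
    · rfl

theorem al_wtJ (φ : O ≃ₗ[Om] O) (g : Fin 3 → Om) (x : J) :
    al 1 φ (wtJ g x) = wtJ g (al 1 φ x) :=
  j_ext (fun i => by simp only [Prcx.dg_al, wtJ, dg_jm, AlgEquiv.one_apply]) fun i => by
    simp only [Prcx.sl_al, wtJ, sl_jm, map_smul]

theorem al_comm {σ : Gq} {a b : O → O} {φ : O → O} (h : ∀ y, a (φ y) = φ (b y)) (x : J) :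
    al σ a (al 1 φ x) = al 1 φ (al σ b x) := by
  rw [al_al, al_al, mul_one, one_mul, funext h]

theorem al_symm (φ : O ≃ₗ[Om] O) (x : J) : al 1 φ.symm (al 1 φ x) = x :=
  j_ext (fun i => by simp only [Prcx.dg_al, AlgEquiv.one_apply]) fun i => by
    simp only [Prcx.sl_al, φ.symm_apply_apply]

/-- A property of maps which holds for the generators holds for all maps of the datum. -/
theorem all_of (hn : D.NF χ α c g) (h : D.OK) (hχ : Chi D.G χ) {P : (J → J) → Prop}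
    (hc : ∀ a b, P a → P b → P fun x => a (b x)) (hs : ∀ (t : Om) a, P a → P fun x => t • a x)
    (h1 : ∀ σ ∈ D.G, P (al σ (α σ))) (h2 : P (phJ c)) (h3 : P (wtJ g)) {σ : Gq}
    (hσ : σ ∈ D.G) : P (D.f σ) := by
  have h4 : ∀ ρ ∈ D.K, χ ρ = 1 → P (D.f ρ) := fun ρ hρ h5 => by
    obtain ⟨t, ht⟩ := hn.rho ρ hρ h5
    rw [funext ht]
    exact hs t _ (hc _ _ h2 (h1 ρ (h.le hρ)))
  have h5 : ∀ τ ∈ D.K, P (D.f τ) := fun τ hτ => by
    rcases three (χ τ) with h6 | h6 | h6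
    · obtain ⟨t, ht⟩ := hn.base τ hτ h6
      rw [funext ht]
      exact hs t _ (h1 τ (h.le hτ))
    · exact h4 τ hτ h6
    · have hG := h.le hτ
      obtain ⟨t, ht⟩ := h.coc (τ * τ) (mul_mem hG hG) τ⁻¹ (inv_mem hτ)
      have h7 := Datx.ne_zero (h.sim _ (mul_mem hG hG)).toSemi (h.sim _ (inv_mem hG)).toSemi ht
      have h8 := hs t⁻¹ _ (hc _ _ (h4 _ (mul_mem hτ hτ) (by rw [hχ.mul τ hG τ hG, h6]; rfl))
        (h4 _ (inv_mem hτ) (by rw [chi_inv hχ hG, h6]; rfl)))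
      simp only [ht, mul_inv_cancel_right, inv_smul_smul₀ h7] at h8
      exact h8
  by_cases hK : σ ∈ D.K
  · exact h5 σ hK
  · obtain ⟨s, hs1, hs2, hs3⟩ := hχ.ix2' h.ix hσ hK
    obtain ⟨h6, t, -, ht⟩ := h.split hs1 hs2 hσ hK
    obtain ⟨u, hu⟩ := hn.dual s hs1 hs2 hs3
    rw [funext ht]
    refine hs t _ (hc _ _ ?_ (h5 _ h6))
    rw [funext hu]
    exact hs u _ (hc _ _ h3 (h1 s hs1))

theorem up6_smul (t : Om) {a : J → J} (h : Up6 a) : Up6 fun x => t • a x := by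
  refine ⟨fun x h1 h2 => ?_, fun x h1 h2 => ?_, fun x h1 h2 => ?_⟩
  · rw [six_lin.2.2.map_smul, six_lin.2.1.map_smul, (h.p x h1 h2).1, (h.p x h1 h2).2, smul_zero,
      smul_zero]
    exact ⟨rfl, rfl⟩
  · rw [six_lin.2.2.map_smul, six_lin.1.map_smul, (h.m x h1 h2).1, (h.m x h1 h2).2, smul_zero,
      smul_zero]
    exact ⟨rfl, rfl⟩
  · rw [six_lin.1.map_smul, six_lin.2.1.map_smul, (h.o x h1 h2).1, (h.o x h1 h2).2, smul_zero]
    exact ⟨rfl, rfl⟩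

theorem up6_comp {a b : J → J} (ha : Up6 a) (hb : Up6 b) : Up6 fun x => a (b x) :=
  ⟨fun x h1 h2 => ha.p _ (hb.p x h1 h2).1 (hb.p x h1 h2).2,
    fun x h1 h2 => ha.m _ (hb.m x h1 h2).1 (hb.m x h1 h2).2,
    fun x h1 h2 => ha.o _ (hb.o x h1 h2).1 (hb.o x h1 h2).2⟩

/-- A unipotent matrix. -/
def RR : Matrix (Fin 3) (Fin 3) Om := !![1, 1, 0; 0, 1, 0; 0, 0, 1]

theorem RR_det : RR.det = 1 := by simp [RR, det_fin_three]

theorem RR_inv : RRᵀ⁻¹ = !![1, 0, 0; -1, 1, 0; 0, 0, 1] := by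
  refine inv_eq_left_inv ?_
  ext i j
  fin_cases i <;> fin_cases j <;> simp [RR, mul_apply, Fin.sum_univ_three]

theorem RR_mul (a : Fin 3 → Om) : RR *ᵥ a = ![a 0 + a 1, a 1, a 2] := by
  ext i
  fin_cases i <;> simp [RR, mulVec, dotProduct, Fin.sum_univ_three]

theorem RR_mul' (a : Fin 3 → Om) : RRᵀ⁻¹ *ᵥ a = ![a 0, a 1 - a 0, a 2] := by
  rw [RR_inv]
  ext i
  fin_cases i <;> simp [mulVec, dotProduct, Fin.sum_univ_three, neg_add_eq_sub]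

/-- A rational unipotent automorphism of the split octonions. -/
theorem exists_uni : ∃ φ : O ≃ₗ[Om] O, Aut8 φ ∧ (∀ σ y, oa σ (φ y) = φ (oa σ y)) ∧
    (∀ y, φ (φ y - y) = φ y - y) ∧ ∃ y, φ y ≠ y := by
  obtain ⟨φ, h1, h2, -⟩ := sl3_aut RR_det
  have p1 : ∀ y, zp (φ y) = zp y := fun y => by rw [h2, ZDx.zp_zorn]
  have p2 : ∀ y, zm (φ y) = zm y := fun y => by rw [h2, ZDx.zm_zorn]
  have p3 : ∀ y, za (φ y) = ![za y 0 + za y 1, za y 1, za y 2] := fun y => by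
    rw [h2, ZDx.za_zorn, RR_mul]
  have p4 : ∀ y, zb (φ y) = ![zb y 0, zb y 1 - zb y 0, zb y 2] := fun y => by
    rw [h2, ZDx.zb_zorn, RR_mul']
  refine ⟨φ, h1, fun σ y => z_ext ?_ ?_ ?_ ?_, fun y => z_ext (p1 _) (p2 _) ?_ ?_,
    zorn 0 0 ![0, 1, 0] 0, fun h => ?_⟩
  · rw [p1, (z_oa σ _).1, (z_oa σ _).1, p1]
  · rw [p2, (z_oa σ _).2.1, (z_oa σ _).2.1, p2]
  · rw [p3, (z_oa σ _).2.2.1, (z_oa σ _).2.2.1, p3]
    funext i
    rcases three i with rfl | rfl | rfl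
    · exact map_add σ _ _
    · rfl
    · rfl
  · rw [p4, (z_oa σ _).2.2.2, (z_oa σ _).2.2.2, p4]
    funext i
    rcases three i with rfl | rfl | rfl
    · rfl
    · exact map_sub σ _ _
    · rfl
  · rw [p3, z_lin.2.2.1.map_sub, p3]
    funext i
    rcases three i with rfl | rfl | rfl
    · change za y 0 + za y 1 - za y 0 + (za y 1 - za y 1) = za y 0 + za y 1 - za y 0
      rw [sub_self, add_zero]
    · rfl
    · rfl
  · rw [p4, z_lin.2.2.2.map_sub, p4]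
    funext i
    rcases three i with rfl | rfl | rfl
    · rfl
    · change zb y 1 - zb y 0 - zb y 1 - (zb y 0 - zb y 0) = zb y 1 - zb y 0 - zb y 1
      rw [sub_self, sub_zero]
    · rfl
  · have h3 := congrFun ((p3 _).symm.trans (congrArg za h)) 0
    rw [ZDx.za_zorn] at h3
    have h4 : (0 : Om) + 1 = 0 := h3
    rw [zero_add] at h4
    exact one_ne_zero h4

theorem dg_sub (x y : J) (i : Fin 3) : dg (x - y) i = dg x i - dg y i := by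
  rw [dg_lin.map_sub, Pi.sub_apply]

theorem sl_sub (x y : J) (i : Fin 3) : sl (x - y) i = sl x i - sl y i := by
  rw [sl_lin.map_sub, Pi.sub_apply]

/-- The transvection with coefficient one. -/
def tt (x : J) : J := Frmx.tg 0 1 2 1 (fun y => star (y * 1)) x

theorem tt_eq (x : J) : dg (tt x) 0 = dg x 0 ∧
    dg (tt x) 1 = dg x 1 + (bil 1 (sl x 2) + dg x 0) ∧ dg (tt x) 2 = dg x 2 ∧
    sl (tt x) 0 = sl x 0 + star (sl x 1) ∧ sl (tt x) 1 = sl x 1 ∧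
    sl (tt x) 2 = sl x 2 + dg x 0 • (1 : O) :=
  ⟨Frmx.dg_tg_ne (by decide) x, by rw [tt, Frmx.dg_tg_j, Oct.norm_one, one_mul],
    Frmx.dg_tg_ne (by decide) x, by rw [tt, Frmx.sl_tg_i (by decide), mul_one],
    Frmx.sl_tg_ne (by decide) (by decide) x, Frmx.sl_tg_k (by decide) x⟩

theorem tt_al {σ : Gq} {a : O → O} (h : Semi σ a) (hm : ∀ x y, a (x * y) = a x * a y) (x : J) :
    tt (al σ a x) = al σ a (tt x) := by
  obtain ⟨h1, h2, -, h3⟩ := hom_props h hm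
  obtain ⟨a1, a2, a3, a4, a5, a6⟩ := tt_eq (al σ a x)
  obtain ⟨b1, b2, b3, b4, b5, b6⟩ := tt_eq x
  refine j_ext (fun i => ?_) fun i => ?_
  · rcases three i with rfl | rfl | rfl
    · rw [a1, Prcx.dg_al, Prcx.dg_al, b1]
    · rw [a2, Prcx.dg_al, Prcx.dg_al, Prcx.dg_al, Prcx.sl_al, b2, map_add, map_add, ← h3, h1]
    · rw [a3, Prcx.dg_al, Prcx.dg_al, b3]
  · rcases three i with rfl | rfl | rfl
    · rw [a4, Prcx.sl_al, Prcx.sl_al, Prcx.sl_al, b4, h.add, h2]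
    · rw [a5, Prcx.sl_al, Prcx.sl_al, b5]
    · rw [a6, Prcx.sl_al, Prcx.sl_al, Prcx.dg_al, b6, h.add, h.smul, h1]

theorem tt_sub (x : J) : dg (tt x - x) 0 = 0 ∧ dg (tt x - x) 1 = bil 1 (sl x 2) + dg x 0 ∧
    dg (tt x - x) 2 = 0 ∧ sl (tt x - x) 0 = star (sl x 1) ∧ sl (tt x - x) 1 = 0 ∧
    sl (tt x - x) 2 = dg x 0 • (1 : O) := by
  obtain ⟨b1, b2, b3, b4, b5, b6⟩ := tt_eq x
  simp only [dg_sub, sl_sub, b1, b2, b3, b4, b5, b6, sub_self, add_sub_cancel_left, and_self]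

theorem tt_uni (x : J) : (fun y => tt y - y)^[3] x = 0 := by
  obtain ⟨a1, -⟩ := tt_sub x
  obtain ⟨b1, -, -, -, b5, b6⟩ := tt_sub (tt x - x)
  obtain ⟨c1, c2, c3, c4, c5, c6⟩ := tt_sub (tt (tt x - x) - (tt x - x))
  rw [a1, zero_smul] at b6
  change tt (tt (tt x - x) - (tt x - x)) - (tt (tt x - x) - (tt x - x)) = 0
  refine j_ext (fun i => ?_) fun i => ?_
  · rw [Prcx.dg_zero]
    rcases three i with rfl | rfl | rfl
    · exact c1
    · rw [c2, b6, b1, bil_zero_right, add_zero]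
    · exact c3
  · rw [Prcx.sl_zero]
    rcases three i with rfl | rfl | rfl
    · rw [c4, b5, star_zero]
    · exact c5
    · rw [c6, b1, zero_smul]

end Fnfx

open Fnfx

theorem ED.NF.split (hn : D.NF χ α c g) (hle : D.K ≤ D.G) {φ : O ≃ₗ[Om] O} (hφ : Aut8 φ)
    (hα : ∀ σ ∈ D.G, ∀ y, α σ (φ y) = φ (oa σ y)) :
    ∃ ψ : J ≃ₗ[Om] J, Sim 1 ψ ∧ (D.conj ψ).NF χ oa c g := by
  obtain ⟨ψ, h1, -, h2, h3, h4⟩ := hφ.al
  have h5 : ∀ σ x, (D.conj ψ).f σ x = al 1 φ.symm (D.f σ (al 1 φ x)) := fun σ x => by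
    by_cases hK : σ ∈ D.K
    · rw [D.conj_K ψ hK, h3, h2]
    · rw [Datx.f_nK D ψ hK]
      beta_reduce
      rw [h4, h3, h2]
  refine ⟨ψ, h1, ha_oa hn.ha.opn, hn.c0, hn.cK, hn.g0, hn.gF, fun σ hσ h0 => ?_,
    fun σ hσ h0 => ?_, fun σ hσ hK h0 => ?_, hn.wei⟩
  · obtain ⟨t, ht⟩ := hn.base σ hσ h0
    exact ⟨t, fun x => by rw [h5, ht, al_comm (hα σ (hle hσ)), al_smul, al_symm]⟩
  · obtain ⟨t, ht⟩ := hn.rho σ hσ h0
    exact ⟨t, fun x => by rw [h5, ht, al_comm (hα σ (hle hσ)), al_smul, ← al_phJ, al_symm]⟩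
  · obtain ⟨t, ht⟩ := hn.dual σ hσ hK h0
    exact ⟨t, fun x => by rw [h5, ht, al_comm (hα σ hσ), al_smul, ← al_wtJ, al_symm]⟩

theorem ED.NF.up6 (hn : D.NF χ oa c g) (h : D.OK) (hχ : Chi D.G χ) {σ : Gq} (hσ : σ ∈ D.G) :
    Up6 (D.f σ) :=
  all_of hn h hχ (fun _ _ => up6_comp) (fun t _ => up6_smul t) (fun σ _ => up6_al σ) (up6_phJ c)
    (up6_wtJ g) hσ

/-- Automorphisms which commute with the action give elements of the group. -/
theorem ED.NF.mem (hn : D.NF χ α c g) (h : D.OK) (hχ : Chi D.G χ) {φ : O ≃ₗ[Om] O} (hφ : Aut8 φ)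
    (hα : ∀ σ ∈ D.G, ∀ y, α σ (φ y) = φ (α σ y)) {ψ : J ≃ₗ[Om] J} (hψ : ∀ x, ψ x = al 1 φ x) :
    ψ ∈ D.grp := by
  obtain ⟨-, h1, h2⟩ := al_props (semi_lin φ) hφ
  have h3 : ∀ σ ∈ D.G, ∀ x, ψ (D.f σ x) = D.f σ (ψ x) := fun σ hσ =>
    all_of hn h hχ (P := fun a => ∀ x, ψ (a x) = a (ψ x)) (fun a b ha hb x => by rw [ha, hb])
      (fun t a ha x => by rw [map_smul, ha]) (fun σ hσ x => by rw [hψ, hψ, al_comm (hα σ hσ)])
      (fun x => by rw [hψ, hψ, al_phJ]) (fun x => by rw [hψ, hψ, al_wtJ]) hσ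
  refine ⟨fun x => (congrArg cub (hψ x)).trans (h1 x), fun σ hσ => h3 σ (h.le hσ),
    fun σ hσ _ x y => ?_⟩
  rw [← h3 σ hσ, hψ, hψ]
  exact h2 _ _

theorem ED.NF.not_ani (hn : D.NF χ α c g) (h : D.OK) (hχ : Chi D.G χ) {x : O} (hx : x ≠ 0)
    (hf : Fv D.G α x) (h0 : norm x = 0) : ¬ AniL D.grp := by
  obtain ⟨φ, h1, h2⟩ := tri_split hn.ha hx hf h0
  obtain ⟨u, u1, u2, u3, y, u4⟩ := exists_uni
  have h3 : Aut8 ((φ.symm.trans u).trans φ) := fun a b => by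
    change φ (u (φ.symm (a * b))) = φ (u (φ.symm a)) * φ (u (φ.symm b))
    rw [h1.symm, u1, h1]
  obtain ⟨ψ, -, -, h4, -⟩ := h3.al
  have h5 : ∀ z i, sl (ψ z) i = φ (u (φ.symm (sl z i))) := fun z i => by
    rw [h4, Prcx.sl_al]
    rfl
  have h6 : ∀ z i, dg (ψ z) i = dg z i := fun z i => by rw [h4, Prcx.dg_al, AlgEquiv.one_apply]
  intro hA
  have h7 := hA ψ (hn.mem h hχ h3 (fun σ hσ z => by
    obtain ⟨z, rfl⟩ := φ.surjective z
    change α σ (φ (u (φ.symm (φ z)))) = φ (u (φ.symm (α σ (φ z))))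
    rw [h2 σ hσ, h2 σ hσ, φ.symm_apply_apply, φ.symm_apply_apply, u2]) h4) ⟨2, fun z => by
      change ψ (ψ z - z) - (ψ z - z) = 0
      refine sub_eq_zero.2 (j_ext (h6 _) fun i => ?_)
      rw [h5, sl_sub, h5, map_sub, φ.symm_apply_apply, u3, map_sub, φ.apply_symm_apply]⟩
  have h8 := h5 (ins 0 (φ y)) 0
  rw [h7, Prcx.sl_ins_self, φ.symm_apply_apply] at h8
  exact u4 (φ.injective ((Prcx.sl_ins_self 0 (φ y)).symm.trans h8)).symm

theorem ED.NF.not_ani' (hn : D.NF χ α c g) (h : D.OK) (hK : D.G ≤ D.K)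
    (h0 : ∀ σ ∈ D.G, χ σ = 0) : ¬ AniL D.grp := by
  obtain ⟨ψ, hψ⟩ := Frmx.exists_tg (i := 0) (j := 1) (k := 2) (a := 1) (by decide) (by decide)
    (by decide) (Frmx.linA 1)
  have h1 : ∀ x, ψ x = tt x := hψ
  intro hA
  have h2 := hA ψ ⟨fun x => (congrArg cub (hψ x)).trans (Frmx.cub_tA 0 1 x), fun σ hσ x => by
    obtain ⟨t, ht⟩ := hn.base σ hσ (h0 σ (h.le hσ))
    rw [ht, ht, map_smul, h1, h1, tt_al (hn.ha.semi σ (h.le hσ)) (hn.ha.hom σ (h.le hσ))],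
    fun σ hσ h3 => absurd (hK hσ) h3⟩ ⟨3, fun x => by simp only [h1]; exact tt_uni x⟩
  have h3 := (tt_sub (ee 0)).2.2.2.2.2
  rw [← h1, h2, Prcx.dg_ee_self, one_smul] at h3
  refine one_ne (h3.symm.trans ?_)
  exact (congrArg (fun y => sl y 2) (sub_self (ee 0))).trans (Prcx.sl_zero 2)

theorem ED.NF.spl (hn : D.NF χ α c g) (h : D.OK) (h0 : ∀ σ ∈ D.G, χ σ = 0) {x : O} (hx : x ≠ 0)
    (hf : Fv D.K α x) (hn0 : norm x = 0) : D.Spl := by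
  obtain ⟨φ, h1, h2⟩ := tri_split (hn.ha.mono h.opn h.le) hx hf hn0
  obtain ⟨ψ, h3, -, h4, -⟩ := h1.al
  refine ⟨ψ, h3, fun σ hσ => ?_⟩
  obtain ⟨t, ht⟩ := hn.base σ hσ (h0 σ (h.le hσ))
  exact ⟨t, fun y => by rw [ht, h4, h4, al_comm (h2 σ hσ), aj]⟩

/-- If `c` is a norm then the algebra is split. -/
theorem ED.NF.line (hn : D.NF χ α c g) (h : D.OK) (hχ : Chi D.G χ) {ρ : Gq} (hρ : ρ ∈ D.K)
    (h1 : χ ρ = 1) {z : Om} (hz : ∀ σ ∈ D.K, χ σ = 0 → σ z = z) (hc : z * ρ z * ρ (ρ z) = c) :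
    ∃ x, Line D.K D.f x := by
  have hG := h.le hρ
  have h2 : ∀ τ ∈ D.K, ∀ σ ∈ D.K, χ σ = 0 → σ (τ z) = τ z := fun τ hτ σ hσ h0 => by
    have h3 := hz _ (mul_mem (inv_mem hτ) (mul_mem hσ hτ))
      (by rw [chi_conj hχ (h.le hτ) (h.le hσ), h0])
    rw [← AlgEquiv.mul_apply, ← mul_inv_cancel_left τ (σ * τ), AlgEquiv.mul_apply, h3]
  have h3 : ρ (ρ (ρ z)) = z := hz (ρ * (ρ * ρ)) (mul_mem hρ (mul_mem hρ hρ))
    (by rw [hχ.mul _ hG _ (mul_mem hG hG), hχ.mul _ hG _ hG, h1]; rfl)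
  have h4 : ∀ σ ∈ D.K, ∀ d, al σ (α σ) (jm d 0) = jm (fun i => σ (d i)) 0 := fun σ hσ d => by
    rw [al, dg_jm, sl_jm]
    exact congrArg _ (funext fun _ => (hn.ha.semi σ (h.le hσ)).zero)
  refine ⟨jm ![1, ρ z * ρ (ρ z), c * ρ (ρ z)] 0, fun h5 => ?_, fun σ hσ =>
    gen (hχ.mono h.le) (P := fun σ => ∃ t : Om, D.f σ _ = t • _) (fun σ hσ τ hτ ha hb => ?_)
      (fun σ hσ h0 => ?_) hρ h1 ?_ hσ⟩
  · have h6 : (1 : Om) = 0 := congrArg (fun y => dg y 0) h5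
    exact one_ne_zero h6
  · obtain ⟨a, ha⟩ := ha
    obtain ⟨b, hb⟩ := hb
    obtain ⟨t, ht⟩ := h.coc σ (h.le hσ) τ hτ
    have h6 := Datx.ne_zero (h.sim _ (h.le hσ)).toSemi (h.sim _ (h.le hτ)).toSemi ht
    refine ⟨t⁻¹ * (σ b * a), ?_⟩
    rw [mul_smul, eq_inv_smul_iff₀ h6, ← ht, hb, (h.sim _ (h.le hσ)).smul, ha, smul_smul]
  · obtain ⟨t, ht⟩ := hn.base σ hσ h0
    refine ⟨t, ?_⟩
    rw [ht, h4 σ hσ]
    refine congrArg (fun d => t • jm d 0) (funext fun i => ?_)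
    rcases three i with rfl | rfl | rfl
    · exact map_one σ
    · exact (map_mul σ _ _).trans
        (congrArg₂ (· * ·) (h2 ρ hρ σ hσ h0) (h2 (ρ * ρ) (mul_mem hρ hρ) σ hσ h0))
    · exact (map_mul σ _ _).trans
        (congrArg₂ (· * ·) (hn.cK σ hσ) (h2 (ρ * ρ) (mul_mem hρ hρ) σ hσ h0))
  · obtain ⟨t, ht⟩ := hn.rho ρ hρ h1
    refine ⟨t * z, ?_⟩
    rw [ht, h4 ρ hρ, mul_smul]
    refine congrArg (fun y => t • y) (j_ext (fun i => ?_) fun i => ?_)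
    · rw [Prcx.dg_smul]
      rcases three i with rfl | rfl | rfl
      · change c⁻¹ * ρ (c * ρ (ρ z)) = z * 1
        rw [map_mul, hn.cK ρ hρ, h3, inv_mul_cancel_left₀ hn.c0, mul_one]
      · change c * ρ 1 = z * (ρ z * ρ (ρ z))
        rw [map_one, mul_one, ← hc, mul_assoc]
      · change c * ρ (ρ z * ρ (ρ z)) = z * (c * ρ (ρ z))
        rw [map_mul, h3]
        ring
    · rw [Prcx.sl_smul, sl_jm, Pi.zero_apply, smul_zero]
      rcases three i with rfl | rfl | rfl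
      · exact smul_zero c
      · rfl
      · rfl

end Vale.Agent.P011Z.Cl

end
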